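import Vale.Agent.N132.Mix

/-!
# P132: weak mixing by one unitary
-/

open scoped ComplexConjugate InnerProductSpace

namespace Vale.Agent.N132

open Vale.Agent.P132

universe u

variable {H : Type u} [NormedAddCommGroup H] [InnerProductSpace ℂ H] [CompleteSpace H]
variable {M : VonNeumannAlgebra H} {φ ψ : (H →L[ℂ] H) → ℂ}

theorem trans_main (hM : IsTypeIIIOneFactor M) (hφ : IsNormalState M φ) (hφf : IsFaithful M φ)
    (hψ : IsNormalState M ψ) (hψf : IsFaithful M ψ) {δ : ℝ} (hδ : 0 < δ) :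
    ∃ u ∈ M, star u * u = 1 ∧ u * star u = 1 ∧
      ∀ y ∈ M, ‖ψ y - φ (u * y * star u)‖ ≤ δ * ‖y‖ :=
  N8.transitivity hM (c := 1 / 100) (by norm_num)
    (fun _ _ hφ hφf hψ hψf _ hδ => exists_piece hM hφ hφf hψ hψf hδ) hφ hφf hψ hψf hδ

/-- large matrix algebras which are almost centralized -/
theorem exists_big (hM : IsTypeIIIOneFactor M) (hφ : IsNormalState M φ) (hf : IsFaithful M φ)
    (k : ℕ) {d : ℝ} (hd : 0 < d) : ∃ b : Fin (k + 1) → (H →L[ℂ] H), CF M b ∧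
      ∀ y ∈ M, ‖φ (mavg (cmu b) y) - φ y‖ ≤ d * ‖y‖ := by
  obtain ⟨s, hs⟩ := N18.exists_cz hM hφ hf k
  have hρ := N18.rho_normal hs hφ
  have hρf := N18.rho_faithful hs hφ hf
  obtain ⟨U, hU, hU1, hU2, hU3⟩ := trans_main hM hρ hρf hφ hf (δ := d / 2) (by positivity)
  have hmu : MU M fun i j => star U * N18.fmu s i j * U := N18.MU.conj hs.mu hU hU1 hU2
  obtain ⟨b, hb, hbe⟩ := hmu.exists_cf hM hφ hf
  have hee : (fun i j => star U * N18.fmu s i j * U) = cmu b := by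
    funext i j
    exact hbe i j
  refine ⟨b, hb, fun y hy => ?_⟩
  have hmM : mavg (cmu b) y ∈ M := mavg_mem hb.mu hy
  have h1 := hU3 y hy
  have h2 := hU3 _ hmM
  have h3 : N18.rho φ s (U * mavg (cmu b) y * star U) = N18.rho φ s (U * y * star U) := by
    rw [← hee, N18.mavg_conj (N18.fmu s) hU2,
      N18.rho_mavg hs hφ (mul_mem (mul_mem hU hy) (star_mem hU))]
  rw [h3] at h2
  have h4 : d / 2 * ‖mavg (cmu b) y‖ ≤ d / 2 * ‖y‖ :=
    mul_le_mul_of_nonneg_left (mavg_norm_le hb y) (by positivity)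
  have e2 : φ (mavg (cmu b) y) - φ y = (φ (mavg (cmu b) y) - N18.rho φ s (U * y * star U)) -
      (φ y - N18.rho φ s (U * y * star U)) := by ring
  rw [e2]
  refine (norm_sub_le _ _).trans ?_
  linarith

/-- large matrix algebras which are almost centralized and average a finite set -/
theorem exists_big_avg (hM : IsTypeIIIOneFactor M) (hφ : IsNormalState M φ) (hf : IsFaithful M φ)
    (X : Finset (H →L[ℂ] H)) (hX : ∀ x ∈ X, x ∈ M) (k : ℕ) {d : ℝ} (hd : 0 < d) :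
    ∃ (m : ℕ) (a : Fin (k + 1) × Fin m → (H →L[ℂ] H)), 0 < m ∧ CF M a ∧
      (∀ y ∈ M, ‖φ (mavg (cmu a) y) - φ y‖ ≤ d * ‖y‖) ∧
      ∀ x ∈ X, ∃ c : ℂ, ‖c - φ x‖ ≤ d * ‖x‖ ∧ ‖c‖ ≤ ‖x‖ ∧
        (φ (star (mavg (cmu a) x - c • 1) * (mavg (cmu a) x - c • 1))).re ≤ d := by
  classical
  obtain ⟨b, hb, hb1⟩ := exists_big hM hφ hf k (d := d / 2) (by positivity)
  obtain ⟨m, e, he, h1, h2⟩ := matrix_main hM (th_state hb hφ) (th_faithful hb hf)
    (X.image (cex b)) (by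
      intro z hz
      obtain ⟨x, hx, rfl⟩ := Finset.mem_image.1 hz
      exact cex_mem hb (hX x hx)) (δ := d / 2) (by positivity)
  have hme : Nonempty (Fin m) := by
    by_contra h0
    rw [not_nonempty_iff] at h0
    have h3 := he.sum
    rw [Finset.univ_eq_empty, Finset.sum_empty] at h3
    have h4 := state_one hφ
    rw [← h3, state_zero hφ] at h4
    exact zero_ne_one h4
  obtain ⟨c, hc, hce⟩ := he.exists_cf hM hφ hf
  have hee : e = cmu c := by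
    funext i j
    exact hce i j
  subst hee
  refine ⟨m, fun p => b p.1 * c p.2, Fin.pos_iff_nonempty.2 hme, hb.comp hc, fun y hy => ?_,
    fun x hx => ⟨φ (th b (cex b x)), ?_, ?_, ?_⟩⟩
  · rw [mavg_comp]
    have h3 := h1 (cex b y) (cex_mem hb hy)
    have h4 := hb1 y hy
    rw [mavg_eq_th] at h4
    have h5 : d / 2 * ‖cex b y‖ ≤ d / 2 * ‖y‖ :=
      mul_le_mul_of_nonneg_left (cex_norm_le hb y) (by positivity)
    refine (norm_sub_le_norm_sub_add_norm_sub _ (φ (th b (cex b y))) _).trans ?_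
    linarith
  · have h4 := hb1 x (hX x hx)
    rw [mavg_eq_th] at h4
    refine h4.trans (mul_le_mul_of_nonneg_right (by linarith) (norm_nonneg _))
  · exact (state_norm_le hφ (th_mem hb (cex_mem hb (hX x hx)))).trans
      ((th_norm_le hb _).trans (cex_norm_le hb x))
  · rw [mavg_comp]
    have h3 := h2 _ (Finset.mem_image_of_mem (cex b) hx)
    have e1 : th b (mavg (cmu c) (cex b x)) - φ (th b (cex b x)) • 1 =
        th b (mavg (cmu c) (cex b x) - φ (th b (cex b x)) • 1) := by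
      rw [th_sub, th_smul, th_one hb]
    rw [e1, ← th_star, ← th_mul hb]
    exact h3.trans (by linarith)

theorem norm_state_sq (hφ : IsNormalState M φ) {z : H →L[ℂ] H} (hz : z ∈ M) :
    ‖φ (star z * z)‖ = (φ (star z * z)).re := by
  obtain ⟨V, -, hV⟩ := PD.exists_vec hφ
  rw [vec_sq hV hz, hV _ (mul_mem (star_mem hz) hz), amp_mul, amp_star, Cmp.inner_star_mul_self,
    norm_pow, Complex.norm_real, norm_norm]

theorem mavg_diag {ι : Type} [Fintype ι] [DecidableEq ι] {a : ι → (H →L[ℂ] H)} (ha : CF M a)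
    (i : ι) : mavg (cmu a) (a i * star (a i)) = ((Fintype.card ι : ℂ)⁻¹) • 1 := by
  rw [mavg_eq_th, cex, th_smul, Finset.sum_eq_single i]
  · have e : star (a i) * (a i * star (a i)) * a i = (star (a i) * a i) * (star (a i) * a i) := by
      simp only [mul_assoc]
    rw [e, ha.orth, if_pos rfl, one_mul, th_one ha]
  · intro j _ hj
    have e : star (a j) * (a i * star (a i)) * a j = (star (a j) * a i) * (star (a i) * a j) := by
      simp only [mul_assoc]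
    rw [e, ha.orth, if_neg hj, zero_mul]
  · intro h'
    exact absurd (Finset.mem_univ i) h'

theorem exists_pos_le_all {α : Type*} (s : Finset α) (f : α → ℝ) (hf : ∀ a ∈ s, 0 < f a) :
    ∃ η > 0, ∀ a ∈ s, η ≤ f a := by
  rcases s.eq_empty_or_nonempty with rfl | hs
  · exact ⟨1, one_pos, fun a ha => absurd ha (Finset.notMem_empty a)⟩
  · obtain ⟨a, ha, h⟩ := s.exists_min_image f hs
    exact ⟨f a, hf a ha, h⟩

theorem exists_bound {E : Type*} [SeminormedAddCommGroup E] (s : Finset E) :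
    ∃ C : ℝ, 1 ≤ C ∧ ∀ x ∈ s, ‖x‖ ≤ C := by
  have h0 : 0 ≤ ∑ x ∈ s, ‖x‖ := Finset.sum_nonneg fun x _ => norm_nonneg x
  refine ⟨∑ x ∈ s, ‖x‖ + 1, by linarith, fun x hx => ?_⟩
  have h1 : ‖x‖ ≤ ∑ x ∈ s, ‖x‖ :=
    Finset.single_le_sum (f := fun x : E => ‖x‖) (fun x _ => norm_nonneg x) hx
  linarith

/-- the choice of the phases -/
theorem pick {ι G : Type} [Fintype ι] [DecidableEq ι] [Fintype G] [Nonempty G]
    {a : ι → (H →L[ℂ] H)} (ha : CF M a) {W : ι → ι → ℂ} (hW : Flat W) {p : G → ι → ℂ}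
    (hp : Phase p) (T : Finset ((H →L[ℂ] H) × H × H)) {τ K r : ℝ} (hr : 0 ≤ r)
    (hspread : ∀ q ∈ T, ∀ i, ‖star (a i) q.2.2‖ ^ 2 ≤ τ)
    (hbd : ∀ q ∈ T, 2 * (τ * (‖q.1‖ ^ 2 * ‖q.2.1‖ ^ 2)) +
      2 * ((Fintype.card ι : ℝ)⁻¹ * (‖q.1‖ ^ 2 * ‖q.2.1‖ ^ 2 * ‖q.2.2‖ ^ 2)) ≤ K)
    (hK : (T.card : ℝ) * (2 * K) ≤ r ^ 2) :
    ∃ u ∈ M, star u * u = 1 ∧ u * star u = 1 ∧ u ∈ spn a ∧ ∀ q ∈ T,
      ‖⟪q.2.2, (u * q.1 * star u) q.2.1⟫_ℂ - ⟪q.2.2, mavg (cmu a) q.1 q.2.1⟫_ℂ‖ ≤ r ∧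
      ‖⟪q.2.2, (star u * q.1 * u) q.2.1⟫_ℂ - ⟪q.2.2, mavg (cmu a) q.1 q.2.1⟫_ℂ‖ ≤ r := by
  obtain ⟨U, hU⟩ : ∃ U : G × G → (H →L[ℂ] H), ∀ s t, U (s, t) = uu a W (p t) (p s) :=
    ⟨fun s => uu a W (p s.2) (p s.1), fun _ _ => rfl⟩
  obtain ⟨f, hf⟩ : ∃ f : G × G → ((H →L[ℂ] H) × H × H) → ℝ, ∀ s q, f s q =
      ‖⟪q.2.2, (U s * q.1 * star (U s)) q.2.1⟫_ℂ - ⟪q.2.2, mavg (cmu a) q.1 q.2.1⟫_ℂ‖ ^ 2 :=
    ⟨_, fun _ _ => rfl⟩
  obtain ⟨g, hg⟩ : ∃ g : G × G → ((H →L[ℂ] H) × H × H) → ℝ, ∀ s q, g s q =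
      ‖⟪q.2.2, (star (U s) * q.1 * U s) q.2.1⟫_ℂ - ⟪q.2.2, mavg (cmu a) q.1 q.2.1⟫_ℂ‖ ^ 2 :=
    ⟨_, fun _ _ => rfl⟩
  have hf0 : ∀ s q, 0 ≤ f s q := fun s q => by rw [hf]; positivity
  have hg0 : ∀ s q, 0 ≤ g s q := fun s q => by rw [hg]; positivity
  have hfq : ∀ q ∈ T, ∑ s, f s q ≤ (Fintype.card G : ℝ) ^ 2 * K := by
    intro q hq
    rw [Fintype.sum_prod_type]
    simp only [hf, hU]
    exact (moment_uu ha hW hp hp q.1 q.2.1 q.2.2 (hspread q hq)).trans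
      (mul_le_mul_of_nonneg_left (hbd q hq) (by positivity))
  have hgq : ∀ q ∈ T, ∑ s, g s q ≤ (Fintype.card G : ℝ) ^ 2 * K := by
    intro q hq
    rw [Fintype.sum_prod_type, Finset.sum_comm]
    simp only [hg, hU]
    have h1 := moment_uu ha hW.adj hp.conj hp.conj q.1 q.2.1 q.2.2 (hspread q hq)
    simp only [← star_uu, star_star] at h1
    exact h1.trans (mul_le_mul_of_nonneg_left (hbd q hq) (by positivity))
  have htot : ∑ s : G × G, ∑ q ∈ T, (f s q + g s q) ≤ ∑ _s : G × G, r ^ 2 := by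
    rw [Finset.sum_comm]
    have h1 : ∀ q ∈ T, ∑ s, (f s q + g s q) ≤ 2 * ((Fintype.card G : ℝ) ^ 2 * K) := by
      intro q hq
      rw [Finset.sum_add_distrib]
      have h2 := hfq q hq
      have h3 := hgq q hq
      linarith
    refine (Finset.sum_le_sum h1).trans ?_
    rw [Finset.sum_const, Finset.sum_const, nsmul_eq_mul, nsmul_eq_mul, Finset.card_univ,
      Fintype.card_prod]
    push_cast
    have h3 := mul_le_mul_of_nonneg_left hK (sq_nonneg (Fintype.card G : ℝ))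
    nlinarith
  obtain ⟨⟨s, t⟩, -, hs⟩ := Finset.exists_le_of_sum_le Finset.univ_nonempty htot
  obtain ⟨hu1, hu2⟩ := uu_unitary ha hW (hp.unit t) (hp.unit s)
  refine ⟨uu a W (p t) (p s), uu_mem ha _ _, hu1, hu2, uu_spn _ _, fun q hq => ?_⟩
  have h1 : f (s, t) q + g (s, t) q ≤ r ^ 2 :=
    (Finset.single_le_sum (f := fun q => f (s, t) q + g (s, t) q)
      (fun q _ => add_nonneg (hf0 _ q) (hg0 _ q)) hq).trans hs
  have h2 := hf0 (s, t) q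
  have h3 := hg0 (s, t) q
  have h4 : f (s, t) q ≤ r ^ 2 := by linarith
  have h5 : g (s, t) q ≤ r ^ 2 := by linarith
  rw [hf, hU] at h4
  rw [hg, hU] at h5
  exact ⟨(pow_le_pow_iff_left₀ (norm_nonneg _) hr two_ne_zero).1 h4,
    (pow_le_pow_iff_left₀ (norm_nonneg _) hr two_ne_zero).1 h5⟩

/-- the diagonal projections have small mass -/
theorem small_diag (hφ : IsNormalState M φ) {ι : Type} [Fintype ι] [DecidableEq ι]
    {a : ι → (H →L[ℂ] H)} (ha : CF M a) {d : ℝ} (hd : 0 ≤ d)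
    (ha1 : ∀ y ∈ M, ‖φ (mavg (cmu a) y) - φ y‖ ≤ d * ‖y‖) (i : ι) :
    ‖φ (star (star (a i)) * star (a i))‖ ≤ d + (Fintype.card ι : ℝ)⁻¹ := by
  have hi : ‖a i‖ ≤ 1 := H8.isometry_norm_le (by rw [ha.orth, if_pos rfl])
  have hp : a i * star (a i) ∈ M := mul_mem (ha.mem i) (star_mem (ha.mem i))
  have hp1 : ‖a i * star (a i)‖ ≤ 1 := by
    rw [CStarRing.norm_self_mul_star]
    exact mul_le_one₀ hi (norm_nonneg _) hi
  have h1 := ha1 _ hp
  rw [mavg_diag ha, state_smul hφ _ (one_mem M), state_one hφ, mul_one] at h1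
  have h3 := norm_sub_le_norm_sub_add_norm_sub (φ (a i * star (a i)))
    ((Fintype.card ι : ℂ)⁻¹) 0
  rw [sub_zero, sub_zero, norm_sub_rev, norm_inv, Complex.norm_natCast] at h3
  have h4 : d * ‖a i * star (a i)‖ ≤ d := mul_le_of_le_one_right hd hp1
  rw [star_star]
  linarith

omit [CompleteSpace H] in
/-- the expectation is almost scalar -/
theorem almost_scalar {x y : H →L[ℂ] H} {c c' : ℂ} {ζ ζ' : H} {r r' B : ℝ}
    (h1 : ‖(y - c • 1) ζ‖ ≤ r) (h2 : ‖c - c'‖ ≤ r' * ‖x‖) (hζ : ‖ζ‖ ≤ B) (hζ' : ‖ζ'‖ ≤ B) :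
    ‖⟪ζ', y ζ⟫_ℂ - c' * ⟪ζ', ζ⟫_ℂ‖ ≤ B * r + r' * ‖x‖ * (B * B) := by
  have hB0 : 0 ≤ B := (norm_nonneg _).trans hζ
  have e : ⟪ζ', y ζ⟫_ℂ - c' * ⟪ζ', ζ⟫_ℂ =
      ⟪ζ', (y - c • 1) ζ⟫_ℂ + (c - c') * ⟪ζ', ζ⟫_ℂ := by
    have h3 : (y - c • (1 : H →L[ℂ] H)) ζ = y ζ - c • ζ := rfl
    rw [h3, inner_sub_right, inner_smul_right]
    ring
  rw [e]
  refine (norm_add_le _ _).trans (add_le_add ?_ ?_)
  · exact (norm_inner_le_norm _ _).trans (mul_le_mul hζ' h1 (norm_nonneg _) hB0)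
  · rw [norm_mul]
    exact mul_le_mul h2 ((norm_inner_le_norm _ _).trans (mul_le_mul hζ' hζ (norm_nonneg _) hB0))
      (norm_nonneg _) ((norm_nonneg _).trans h2)

/-- **weak mixing by one unitary, one state** -/
theorem mix_one (hM : IsTypeIIIOneFactor M) (hφ : IsNormalState M φ) (hf : IsFaithful M φ)
    (X : Finset (H →L[ℂ] H)) (hX : ∀ x ∈ X, x ∈ M) (Z : Finset H) {δ : ℝ} (hδ : 0 < δ) :
    ∃ u ∈ M, star u * u = 1 ∧ u * star u = 1 ∧
      (∀ y ∈ M, ‖φ (y * u) - φ (u * y)‖ ≤ δ * ‖y‖) ∧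
      ∀ x ∈ X, ∀ ζ ∈ Z, ∀ ζ' ∈ Z,
        ‖⟪ζ', (u * x * star u) ζ⟫_ℂ - φ x * ⟪ζ', ζ⟫_ℂ‖ ≤ δ ∧
        ‖⟪ζ', (star u * x * u) ζ⟫_ℂ - φ x * ⟪ζ', ζ⟫_ℂ‖ ≤ δ := by
  classical
  obtain ⟨C, hC1, hC⟩ := exists_bound X
  obtain ⟨B, hB1, hB⟩ := exists_bound Z
  have hC0 : 0 < C := by linarith
  have hB0 : 0 < B := by linarith
  obtain ⟨T, hT⟩ : ∃ T : Finset ((H →L[ℂ] H) × H × H),
      ∀ q, q ∈ T ↔ q.1 ∈ X ∧ q.2.1 ∈ Z ∧ q.2.2 ∈ Z :=
    ⟨X ×ˢ Z ×ˢ Z, fun q => by rw [Finset.mem_product, Finset.mem_product]⟩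
  obtain ⟨L, hL⟩ : ∃ L : ℝ, L = 2 * (C ^ 2 * B ^ 2) + 2 * (C ^ 2 * B ^ 2 * B ^ 2) := ⟨_, rfl⟩
  have hL0 : 0 < L := by rw [hL]; positivity
  obtain ⟨τ, hτ0, hτ1, hτ2⟩ : ∃ τ : ℝ, 0 < τ ∧ τ ≤ 1 ∧
      τ * (2 * L * (T.card + 1)) ≤ (δ / 2) ^ 2 :=
    ⟨min 1 ((δ / 2) ^ 2 / (2 * L * (T.card + 1))), lt_min one_pos (by positivity),
      min_le_left _ _, (le_div_iff₀ (by positivity)).1 (min_le_right _ _)⟩
  choose η₁ hη₁ h₁ using fun ζ : H => strong_small hφ hf ζ 1 hτ0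
  choose η₂ hη₂ h₂ using fun ζ : H => strong_small hφ hf ζ (2 * C) (ε := δ / (4 * B))
    (by positivity)
  obtain ⟨η, hη, hη'⟩ := exists_pos_le_all Z (fun ζ => min (η₁ ζ) (η₂ ζ))
    fun ζ _ => lt_min (hη₁ ζ) (hη₂ ζ)
  obtain ⟨d, hd0, hd1, hd2, hd3, hd4⟩ : ∃ d : ℝ, 0 < d ∧ d ≤ η / 2 ∧ d ≤ τ ∧ d ≤ δ / 2 ∧
      d * (4 * (C * (B * B))) ≤ δ :=
    ⟨min (min (η / 2) τ) (min (δ / 2) (δ / (4 * (C * (B * B))))),
      lt_min (lt_min (by positivity) hτ0) (lt_min (by positivity) (by positivity)),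
      (min_le_left _ _).trans (min_le_left _ _), (min_le_left _ _).trans (min_le_right _ _),
      (min_le_right _ _).trans (min_le_left _ _),
      (le_div_iff₀ (by positivity)).1 ((min_le_right _ _).trans (min_le_right _ _))⟩
  obtain ⟨k, hk⟩ := exists_nat_gt (1 / d)
  obtain ⟨m, a, hm, ha, ha1, ha2⟩ := exists_big_avg hM hφ hf X hX k hd0
  have : Nonempty (Fin m) := Fin.pos_iff_nonempty.1 hm
  have hnd : (Fintype.card (Fin (k + 1) × Fin m) : ℝ)⁻¹ ≤ d := by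
    have h1 : (k : ℝ) + 1 ≤ (Fintype.card (Fin (k + 1) × Fin m) : ℝ) := by
      rw [Fintype.card_prod, Fintype.card_fin, Fintype.card_fin]
      have : k + 1 ≤ (k + 1) * m := Nat.le_mul_of_pos_right _ hm
      exact_mod_cast this
    have h2 : 0 < 1 / d := by positivity
    rw [inv_le_comm₀ (by linarith) hd0, ← one_div]
    linarith
  have hspread : ∀ ζ ∈ Z, ∀ i, ‖star (a i) ζ‖ ^ 2 ≤ τ := by
    intro ζ hζ i
    have hi : ‖a i‖ ≤ 1 := H8.isometry_norm_le (by rw [ha.orth, if_pos rfl])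
    have h2 := small_diag hφ ha hd0.le ha1 i
    have h5 := (hη' ζ hζ).trans (min_le_left _ _)
    have h3 := h₁ ζ (star (a i)) (star_mem (ha.mem i)) (by rw [norm_star]; exact hi)
      (by linarith)
    calc ‖star (a i) ζ‖ ^ 2 ≤ τ ^ 2 := pow_le_pow_left₀ (norm_nonneg _) h3 2
      _ ≤ τ := pow_le_of_le_one hτ0.le hτ1 two_ne_zero
  have hexp : ∀ x ∈ X, ∀ ζ ∈ Z, ∀ ζ' ∈ Z,
      ‖⟪ζ', mavg (cmu a) x ζ⟫_ℂ - φ x * ⟪ζ', ζ⟫_ℂ‖ ≤ δ / 2 := by
    intro x hx ζ hζ ζ' hζ'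
    obtain ⟨c, hc1, hc2, hc3⟩ := ha2 x hx
    have hzM : mavg (cmu a) x - c • 1 ∈ M :=
      sub_mem (mavg_mem ha.mu (hX x hx)) (M.toStarSubalgebra.smul_mem (one_mem M) _)
    have hz1 : ‖mavg (cmu a) x - c • 1‖ ≤ 2 * C := by
      have h1 := norm_sub_le (mavg (cmu a) x) (c • 1)
      have h2 := mavg_norm_le ha x
      have h3 : ‖c • (1 : H →L[ℂ] H)‖ ≤ ‖c‖ := by
        rw [norm_smul]
        exact mul_le_of_le_one_right (norm_nonneg _) ContinuousLinearMap.norm_id_le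
      have h4 := hC x hx
      linarith
    have h1 := h₂ ζ _ hzM hz1 (by
      rw [norm_state_sq hφ hzM]
      have h5 := (hη' ζ hζ).trans (min_le_right _ _)
      linarith)
    refine (almost_scalar h1 hc1 (hB _ hζ) (hB _ hζ')).trans ?_
    have h2 : B * (δ / (4 * B)) = δ / 4 := by field_simp
    have h3 : d * ‖x‖ * (B * B) ≤ d * C * (B * B) := by
      have := hC x hx
      gcongr
    rw [h2]
    linarith
  obtain ⟨W, hW⟩ := exists_flat (Fin (k + 1) × Fin m)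
  obtain ⟨p, hp⟩ := exists_phase (Fin (k + 1) × Fin m)
  obtain ⟨u, huM, hu1, hu2, hu3, hu4⟩ := pick ha hW hp T (τ := τ) (K := τ * L) (r := δ / 2)
    (by positivity) (fun q hq => hspread _ ((hT q).1 hq).2.2) (by
      intro q hq
      obtain ⟨hq1, hq2, hq3⟩ := (hT q).1 hq
      have h1 := hC _ hq1
      have h2 := hB _ hq2
      have h3 := hB _ hq3
      have h4 := hnd.trans hd2
      calc _ ≤ 2 * (τ * (C ^ 2 * B ^ 2)) + 2 * (τ * (C ^ 2 * B ^ 2 * B ^ 2)) := by gcongr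
        _ = τ * L := by rw [hL]; ring) (by
      have h3 : 0 ≤ τ * L := by positivity
      linarith)
  have hun : ‖u‖ ≤ 1 := H8.isometry_norm_le hu1
  refine ⟨u, huM, hu1, hu2, fun y hy => ?_, fun x hx ζ hζ ζ' hζ' => ?_⟩
  · have h1 := ha1 _ (mul_mem hy huM)
    have h2 := ha1 _ (mul_mem huM hy)
    rw [mavg_spn ha hu3] at h2
    have h3 : ‖y * u‖ ≤ ‖y‖ :=
      (norm_mul_le _ _).trans (mul_le_of_le_one_right (norm_nonneg _) hun)
    have h4 : ‖u * y‖ ≤ ‖y‖ :=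
      (norm_mul_le _ _).trans (mul_le_of_le_one_left (norm_nonneg _) hun)
    have h5 := mul_le_mul hd3 h3 (norm_nonneg _) (by positivity)
    have h6 := mul_le_mul hd3 h4 (norm_nonneg _) (by positivity)
    rw [norm_sub_rev] at h1
    refine (norm_sub_le_norm_sub_add_norm_sub _ (φ (mavg (cmu a) (y * u))) _).trans ?_
    linarith
  · obtain ⟨h4, h5⟩ := hu4 (x, ζ, ζ') ((hT _).2 ⟨hx, hζ, hζ'⟩)
    have h6 := hexp x hx ζ hζ ζ' hζ'
    constructor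
    · refine (norm_sub_le_norm_sub_add_norm_sub _ ⟪ζ', mavg (cmu a) x ζ⟫_ℂ _).trans ?_
      linarith
    · refine (norm_sub_le_norm_sub_add_norm_sub _ ⟪ζ', mavg (cmu a) x ζ⟫_ℂ _).trans ?_
      linarith

/-- **weak mixing by one unitary, two states** -/
theorem mix_two (hM : IsTypeIIIOneFactor M) (hφ : IsNormalState M φ) (hφf : IsFaithful M φ)
    (hψ : IsNormalState M ψ) (hψf : IsFaithful M ψ)
    (X : Finset (H →L[ℂ] H)) (hX : ∀ x ∈ X, x ∈ M) (Z : Finset H) {δ : ℝ} (hδ : 0 < δ) :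
    ∃ u ∈ M, star u * u = 1 ∧ u * star u = 1 ∧
      (∀ y ∈ M, ‖ψ (y * u) - φ (u * y)‖ ≤ δ * ‖y‖) ∧
      ∀ x ∈ X, ∀ ζ ∈ Z, ∀ ζ' ∈ Z,
        ‖⟪ζ', (u * x * star u) ζ⟫_ℂ - ψ x * ⟪ζ', ζ⟫_ℂ‖ ≤ δ ∧
        ‖⟪ζ', (star u * x * u) ζ⟫_ℂ - φ x * ⟪ζ', ζ⟫_ℂ‖ ≤ δ := by
  classical
  obtain ⟨C, hC1, hC⟩ := exists_bound X
  obtain ⟨B, hB1, hB⟩ := exists_bound Z
  have hC0 : 0 < C := by linarith
  have hB0 : 0 < B := by linarith
  have hCB : 1 ≤ C * (B * B) := one_le_mul_of_one_le_of_one_le hC1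
    (one_le_mul_of_one_le_of_one_le hB1 hB1)
  set d : ℝ := δ / (2 * (C * (B * B))) with hd
  have hd0 : 0 < d := by positivity
  have hd1 : d * (C * (B * B)) = δ / 2 := by rw [hd]; field_simp
  have hd2 : d ≤ δ / 2 := by
    rw [← hd1]
    exact le_mul_of_one_le_right hd0.le hCB
  obtain ⟨w, hw, hw1, hw2, hw3⟩ := trans_main hM hφ hφf hψ hψf hd0
  obtain ⟨v, hv, hv1, hv2, hv3, hv4⟩ := mix_one hM hφ hφf
    (X ∪ X.image fun x => w * x * star w) (by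
      intro z hz
      rcases Finset.mem_union.1 hz with h | h
      · exact hX z h
      · obtain ⟨x, hx, rfl⟩ := Finset.mem_image.1 h
        exact mul_mem (mul_mem hw (hX x hx)) (star_mem hw))
    (Z ∪ Z.image fun ζ => w ζ) (δ := δ / 2) (by positivity)
  have hwn : ‖w‖ ≤ 1 := H8.isometry_norm_le hw1
  have hvn : ‖v‖ ≤ 1 := H8.isometry_norm_le hv1
  refine ⟨v * w, mul_mem hv hw, ?_, ?_, fun y hy => ?_, fun x hx ζ hζ ζ' hζ' => ⟨?_, ?_⟩⟩
  · rw [star_mul, mul_assoc, ← mul_assoc (star v), hv1, one_mul, hw1]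
  · rw [star_mul, mul_assoc, ← mul_assoc w, hw2, one_mul, hv2]
  · have h1 := hw3 _ (mul_mem hy (mul_mem hv hw))
    have e1 : w * (y * (v * w)) * star w = w * y * v := by
      calc w * (y * (v * w)) * star w = w * y * v * (w * star w) := by simp only [mul_assoc]
        _ = _ := by rw [hw2, mul_one]
    rw [e1] at h1
    have h2 := hv3 _ (mul_mem hw hy)
    rw [← mul_assoc v w y] at h2
    have h3 : ‖y * (v * w)‖ ≤ ‖y‖ := by
      refine (norm_mul_le _ _).trans (mul_le_of_le_one_right (norm_nonneg _) ?_)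
      exact (norm_mul_le _ _).trans (mul_le_one₀ hvn (norm_nonneg _) hwn)
    have h4 : ‖w * y‖ ≤ ‖y‖ :=
      (norm_mul_le _ _).trans (mul_le_of_le_one_left (norm_nonneg _) hwn)
    have h5 := mul_le_mul hd2 h3 (norm_nonneg _) (by positivity)
    have h6 := mul_le_mul_of_nonneg_left h4 (show 0 ≤ δ / 2 by positivity)
    refine (norm_sub_le_norm_sub_add_norm_sub _ (φ (w * y * v)) _).trans ?_
    linarith
  · have h1 := (hv4 _ (Finset.mem_union_right _ (Finset.mem_image_of_mem _ hx)) ζ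
      (Finset.mem_union_left _ hζ) ζ' (Finset.mem_union_left _ hζ')).1
    have e1 : v * w * x * star (v * w) = v * (w * x * star w) * star v := by
      rw [star_mul]
      simp only [mul_assoc]
    rw [e1]
    have h2 : ‖φ (w * x * star w) * ⟪ζ', ζ⟫_ℂ - ψ x * ⟪ζ', ζ⟫_ℂ‖ ≤ δ / 2 := by
      rw [← sub_mul, norm_mul, norm_sub_rev, ← hd1, ← mul_assoc]
      refine mul_le_mul ((hw3 x (hX x hx)).trans
        (mul_le_mul_of_nonneg_left (hC x hx) hd0.le)) ?_ (norm_nonneg _) (by positivity)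
      exact (norm_inner_le_norm _ _).trans (mul_le_mul (hB _ hζ') (hB _ hζ) (norm_nonneg _) hB0.le)
    refine (norm_sub_le_norm_sub_add_norm_sub _ (φ (w * x * star w) * ⟪ζ', ζ⟫_ℂ) _).trans ?_
    linarith
  · have h1 := (hv4 _ (Finset.mem_union_left _ hx) (w ζ)
      (Finset.mem_union_right _ (Finset.mem_image_of_mem _ hζ)) (w ζ')
      (Finset.mem_union_right _ (Finset.mem_image_of_mem _ hζ'))).2
    have e1 : ⟪ζ', (star (v * w) * x * (v * w)) ζ⟫_ℂ = ⟪w ζ', (star v * x * v) (w ζ)⟫_ℂ := by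
      rw [← BC.inner_star' w, star_mul]
      rfl
    have e2 : ⟪w ζ', w ζ⟫_ℂ = ⟪ζ', ζ⟫_ℂ := by
      rw [← BC.inner_star' w]
      show ⟪ζ', (star w * w) ζ⟫_ℂ = _
      rw [hw1]
      rfl
    rw [e2] at h1
    rw [e1]
    linarith

end Vale.Agent.N132
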