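import Vale.Agent.N132.Phase
import Vale.Agent.P132.N723.Final

/-!
# P132: the random unitary `D' W D` of a matrix algebra and its second moment
-/

open scoped ComplexConjugate InnerProductSpace

namespace Vale.Agent.N132

open Vale.Agent.P132

universe u

variable {H : Type u} [NormedAddCommGroup H] [InnerProductSpace ℂ H] [CompleteSpace H]
variable {M : VonNeumannAlgebra H} {ι G : Type} [Fintype ι] [DecidableEq ι] [Fintype G]
  {a b : ι → (H →L[ℂ] H)} {W : ι → ι → ℂ}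

/-- the unitary `D' W D` -/
noncomputable def uu (a : ι → (H →L[ℂ] H)) (W : ι → ι → ℂ) (e d : ι → ℂ) : H →L[ℂ] H :=
  ∑ i, ∑ j, (e i * W i j * d j) • cmu a i j

/-- the rotated family -/
noncomputable def bb (a : ι → (H →L[ℂ] H)) (W : ι → ι → ℂ) (d : ι → ℂ) (i : ι) : H →L[ℂ] H :=
  ∑ j, conj (W i j * d j) • a j

/-- the unitary given by two families -/
noncomputable def vv (a b : ι → (H →L[ℂ] H)) (e : ι → ℂ) : H →L[ℂ] H :=
  ∑ i, e i • (a i * star (b i))

omit [DecidableEq ι] in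
theorem star_bb (d : ι → ℂ) (i : ι) : star (bb a W d i) = ∑ j, (W i j * d j) • star (a j) := by
  rw [bb, star_sum]
  refine Finset.sum_congr rfl fun j _ => ?_
  rw [star_smul, Complex.star_def, Complex.conj_conj]

omit [DecidableEq ι] in
theorem uu_eq (e d : ι → ℂ) : uu a W e d = vv a (bb a W d) e := by
  rw [uu, vv]
  refine Finset.sum_congr rfl fun i _ => ?_
  rw [star_bb, Finset.mul_sum, Finset.smul_sum]
  refine Finset.sum_congr rfl fun j _ => ?_
  rw [mul_smul_comm, smul_smul, mul_assoc]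
  rfl

omit [DecidableEq ι] in
theorem star_uu (e d : ι → ℂ) : star (uu a W e d) =
    uu a (fun j i => conj (W i j)) (fun j => conj (d j)) (fun i => conj (e i)) := by
  rw [uu, uu, star_sum, Finset.sum_comm]
  refine Finset.sum_congr rfl fun i _ => ?_
  rw [star_sum]
  refine Finset.sum_congr rfl fun j _ => ?_
  rw [star_smul, Complex.star_def, cmu, cmu, star_mul, star_star, map_mul, map_mul]
  congr 1
  ring

omit [DecidableEq ι] in
theorem uu_spn (e d : ι → ℂ) : uu a W e d ∈ spn a :=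
  Submodule.sum_mem _ fun i _ => Submodule.sum_mem _ fun j _ =>
    Submodule.smul_mem _ _ (Submodule.subset_span ⟨(i, j), rfl⟩)

theorem uu_mem (ha : CF M a) (e d : ι → ℂ) : uu a W e d ∈ M :=
  sum_mem fun i _ => sum_mem fun j _ => M.toStarSubalgebra.smul_mem (ha.mu.mem i j) _

omit [DecidableEq ι] in
theorem star_vv (e : ι → ℂ) : star (vv a b e) = vv b a fun i => conj (e i) := by
  rw [vv, vv, star_sum]
  refine Finset.sum_congr rfl fun i _ => ?_
  rw [star_smul, Complex.star_def, star_mul, star_star]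

theorem vv_mul (ha : CF M a) (hb : CF M b) {e : ι → ℂ} (he : ∀ i, e i * conj (e i) = 1) :
    vv a b e * vv b a (fun i => conj (e i)) = 1 := by
  rw [vv, vv, Finset.sum_mul, ← ha.sum]
  refine Finset.sum_congr rfl fun i _ => ?_
  have h1 : ∀ k, e i • (a i * star (b i)) * conj (e k) • (b k * star (a k)) =
      (e i * conj (e k)) • (a i * (star (b i) * b k) * star (a k)) := by
    intro k
    rw [smul_mul_smul_comm]
    simp only [mul_assoc]
  rw [Finset.mul_sum, Finset.sum_eq_single i]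
  · rw [h1, he, hb.orth, if_pos rfl, mul_one, one_smul]
  · intro k _ hk
    rw [h1, hb.orth, if_neg (Ne.symm hk), mul_zero, zero_mul, smul_zero]
  · intro h'
    exact absurd (Finset.mem_univ i) h'

theorem bb_cf (ha : CF M a) (hW : Flat W) {d : ι → ℂ} (hd : ∀ j, d j * conj (d j) = 1) :
    CF M (bb a W d) where
  mem := fun i => sum_mem fun j _ => M.toStarSubalgebra.smul_mem (ha.mem j) _
  orth := fun i k => by
    rw [star_bb, bb, Finset.sum_mul]
    have h1 : ∀ j ∈ (Finset.univ : Finset ι),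
        (W i j * d j) • star (a j) * ∑ l, conj (W k l * d l) • a l =
          (W i j * conj (W k j)) • (1 : H →L[ℂ] H) := by
      intro j _
      rw [Finset.mul_sum, Finset.sum_eq_single j]
      · rw [smul_mul_smul_comm, ha.orth, if_pos rfl, map_mul]
        congr 1
        calc W i j * d j * (conj (W k j) * conj (d j))
            = W i j * conj (W k j) * (d j * conj (d j)) := by ring
          _ = _ := by rw [hd, mul_one]
      · intro l _ hl
        rw [smul_mul_smul_comm, ha.orth, if_neg (Ne.symm hl), smul_zero]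
      · intro h'
        exact absurd (Finset.mem_univ j) h'
    rw [Finset.sum_congr rfl h1, ← Finset.sum_smul, hW.row]
    by_cases hik : i = k
    · rw [if_pos hik, if_pos hik, one_smul]
    · rw [if_neg hik, if_neg hik, zero_smul]
  sum := by
    have h1 : ∀ i ∈ (Finset.univ : Finset ι), bb a W d i * star (bb a W d i) =
        ∑ j, ∑ l, (conj (W i j) * W i l * (conj (d j) * d l)) • (a j * star (a l)) := by
      intro i _
      rw [star_bb, bb, Finset.sum_mul]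
      refine Finset.sum_congr rfl fun j _ => ?_
      rw [Finset.mul_sum]
      refine Finset.sum_congr rfl fun l _ => ?_
      rw [smul_mul_smul_comm, map_mul]
      congr 1
      ring
    rw [Finset.sum_congr rfl h1, Finset.sum_comm, ← ha.sum]
    refine Finset.sum_congr rfl fun j _ => ?_
    rw [Finset.sum_comm, Finset.sum_eq_single j]
    · rw [← Finset.sum_smul, ← Finset.sum_mul, hW.col, if_pos rfl, one_mul, mul_comm, hd,
        one_smul]
    · intro l _ hl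
      rw [← Finset.sum_smul, ← Finset.sum_mul, hW.col, if_neg (Ne.symm hl), zero_mul, zero_smul]
    · intro h'
      exact absurd (Finset.mem_univ j) h'

theorem uu_unitary (ha : CF M a) (hW : Flat W) {e d : ι → ℂ} (he : ∀ i, e i * conj (e i) = 1)
    (hd : ∀ j, d j * conj (d j) = 1) :
    star (uu a W e d) * uu a W e d = 1 ∧ uu a W e d * star (uu a W e d) = 1 := by
  have hb := bb_cf ha hW hd
  rw [uu_eq, star_vv]
  refine ⟨?_, vv_mul ha hb he⟩
  have h1 := vv_mul hb ha (e := fun i => conj (e i)) fun i => by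
    rw [Complex.conj_conj, mul_comm]
    exact he i
  simp only [Complex.conj_conj] at h1
  exact h1

theorem cf_iso (h : CF M a) (i : ι) (v : H) : ‖a i v‖ = ‖v‖ :=
  H8.isometry_norm_apply (by rw [h.orth, if_pos rfl]) v

theorem cf_sum_sq (h : CF M a) (ζ : H) : ∑ i, ‖star (a i) ζ‖ ^ 2 = ‖ζ‖ ^ 2 := by
  have hort : ∀ i j, i ≠ j → ∀ v w : H, ⟪a i v, a j w⟫_ℂ = 0 := by
    intro i j hij v w
    rw [← BC.inner_star' (a i)]
    have : star (a i) (a j w) = (star (a i) * a j) w := rfl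
    rw [this, h.orth, if_neg hij]
    simp
  have e : ζ = ∑ i, a i (star (a i) ζ) := by
    have h3 := congrArg (fun T : H →L[ℂ] H => T ζ) h.sum
    simp only [sum_apply] at h3
    exact h3.symm
  conv_rhs => rw [e]
  rw [norm_sum_sq Finset.univ _ fun i _ j _ hij => hort i j hij _ _]
  exact Finset.sum_congr rfl fun i _ => by rw [cf_iso h]

omit [DecidableEq ι] in
theorem inner_vv (e : ι → ℂ) (x : H →L[ℂ] H) (ζ ζ' : H) :
    ⟪ζ', (vv a b e * x * star (vv a b e)) ζ⟫_ℂ = ∑ i, ∑ k, (e i * conj (e k)) •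
      ⟪star (a i) ζ', star (b i) (x (b k (star (a k) ζ)))⟫_ℂ := by
  have h1 : vv a b e * x * star (vv a b e) =
      ∑ i, ∑ k, (e i * conj (e k)) • (a i * (star (b i) * x * b k * star (a k))) := by
    rw [star_vv, vv, vv, Finset.sum_mul, Finset.sum_mul]
    refine Finset.sum_congr rfl fun i _ => ?_
    rw [Finset.mul_sum]
    refine Finset.sum_congr rfl fun k _ => ?_
    rw [smul_mul_assoc, smul_mul_smul_comm]
    simp only [mul_assoc]
  rw [h1, sum_apply, inner_sum]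
  refine Finset.sum_congr rfl fun i _ => ?_
  rw [sum_apply, inner_sum]
  refine Finset.sum_congr rfl fun k _ => ?_
  rw [smul_apply, inner_smul_right, smul_eq_mul, BC.inner_star]
  rfl

/-- the off-diagonal part -/
theorem step_off (ha : CF M a) (hb : CF M b) {e : G → ι → ℂ} (he : Phase e) (x : H →L[ℂ] H)
    (ζ ζ' : H) {m : ℝ} (hm : ∀ i, ‖star (a i) ζ'‖ ^ 2 ≤ m) :
    ∑ t, ‖⟪ζ', (vv a b (e t) * x * star (vv a b (e t))) ζ⟫_ℂ -
      ∑ i, ⟪star (a i) ζ', star (b i) (x (b i (star (a i) ζ)))⟫_ℂ‖ ^ 2 ≤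
      (Fintype.card G : ℝ) * (m * (‖x‖ ^ 2 * ‖ζ‖ ^ 2)) := by
  simp only [inner_vv]
  refine (he.moment (E := ℂ) fun i k =>
    ⟪star (a i) ζ', star (b i) (x (b k (star (a k) ζ)))⟫_ℂ).trans ?_
  refine mul_le_mul_of_nonneg_left ?_ (Nat.cast_nonneg _)
  rw [Finset.sum_comm, ← cf_sum_sq ha ζ, Finset.mul_sum, Finset.mul_sum]
  refine Finset.sum_le_sum fun k _ => ?_
  have hm0 : 0 ≤ m := le_trans (by positivity) (hm k)
  set η := x (b k (star (a k) ζ)) with hη
  have h1 : ‖η‖ ^ 2 ≤ ‖x‖ ^ 2 * ‖star (a k) ζ‖ ^ 2 := by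
    rw [← mul_pow, ← cf_iso hb k (star (a k) ζ)]
    exact pow_le_pow_left₀ (norm_nonneg _) (x.le_opNorm _) 2
  calc ∑ i, ‖⟪star (a i) ζ', star (b i) η⟫_ℂ‖ ^ 2 ≤ ∑ i, m * ‖star (b i) η‖ ^ 2 := by
        refine Finset.sum_le_sum fun i _ => ?_
        refine (pow_le_pow_left₀ (norm_nonneg _) (norm_inner_le_norm _ _) 2).trans ?_
        rw [mul_pow]
        exact mul_le_mul_of_nonneg_right (hm i) (by positivity)
    _ = m * ‖η‖ ^ 2 := by rw [← Finset.mul_sum, cf_sum_sq hb]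
    _ ≤ _ := mul_le_mul_of_nonneg_left h1 hm0

/-- the diagonal entries -/
theorem step_entry (ha : CF M a) (hW : Flat W) {d : G → ι → ℂ} (hd : Phase d) (x : H →L[ℂ] H)
    (η : H) (i : ι) :
    ∑ s, ‖star (bb a W (d s) i) (x (bb a W (d s) i η)) - cex a x η‖ ^ 2 ≤
      (Fintype.card G : ℝ) * ((Fintype.card ι : ℝ)⁻¹ * (‖x‖ ^ 2 * ‖η‖ ^ 2)) := by
  have hn : (0 : ℝ) < Fintype.card ι := by
    have : Nonempty ι := ⟨i⟩
    exact_mod_cast Fintype.card_pos
  set c : ι → ι → H := fun j l => (W i j * conj (W i l)) • star (a j) (x (a l η)) with hc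
  have h1 : ∀ s, star (bb a W (d s) i) (x (bb a W (d s) i η)) =
      ∑ j, ∑ l, (d s j * conj (d s l)) • c j l := by
    intro s
    rw [star_bb, sum_apply]
    refine Finset.sum_congr rfl fun j _ => ?_
    rw [bb, sum_apply, map_sum, map_sum]
    refine Finset.sum_congr rfl fun l _ => ?_
    rw [smul_apply, smul_apply, map_smul, map_smul,
      smul_smul, hc, smul_smul, map_mul]
    congr 1
    ring
  have h2 : cex a x η = ∑ j, c j j := by
    rw [cex, smul_apply, sum_apply, Finset.smul_sum]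
    refine Finset.sum_congr rfl fun j _ => ?_
    rw [hc]
    show _ = (W i j * conj (W i j)) • star (a j) (x (a j η))
    rw [hW.sq]
    rfl
  simp only [h1, h2]
  refine (hd.moment c).trans (mul_le_mul_of_nonneg_left ?_ (Nat.cast_nonneg _))
  have hWn : ∀ j, ‖W i j‖ ^ 2 = (Fintype.card ι : ℝ)⁻¹ := by
    intro j
    have h3 := hW.sq i j
    rw [Complex.mul_conj, ← Complex.sq_norm] at h3
    apply Complex.ofReal_injective
    rw [h3]
    push_cast
    rfl
  have h3 : ∀ j l, ‖c j l‖ ^ 2 = (Fintype.card ι : ℝ)⁻¹ * (Fintype.card ι : ℝ)⁻¹ *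
      ‖star (a j) (x (a l η))‖ ^ 2 := by
    intro j l
    rw [hc]
    show ‖(W i j * conj (W i l)) • star (a j) (x (a l η))‖ ^ 2 = _
    rw [norm_smul, norm_mul, Complex.norm_conj, mul_pow, mul_pow, hWn, hWn]
  simp only [h3]
  rw [Finset.sum_comm]
  have h4 : ∀ l ∈ (Finset.univ : Finset ι), ∑ j, (Fintype.card ι : ℝ)⁻¹ * (Fintype.card ι : ℝ)⁻¹ *
      ‖star (a j) (x (a l η))‖ ^ 2 ≤
      (Fintype.card ι : ℝ)⁻¹ * (Fintype.card ι : ℝ)⁻¹ * (‖x‖ ^ 2 * ‖η‖ ^ 2) := by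
    intro l _
    rw [← Finset.mul_sum, cf_sum_sq ha]
    refine mul_le_mul_of_nonneg_left ?_ (by positivity)
    rw [← mul_pow, ← cf_iso ha l η]
    exact pow_le_pow_left₀ (norm_nonneg _) (x.le_opNorm _) 2
  refine (Finset.sum_le_sum h4).trans (le_of_eq ?_)
  rw [Finset.sum_const, Finset.card_univ, nsmul_eq_mul]
  field_simp

omit [DecidableEq ι] in
theorem inner_mavg (x : H →L[ℂ] H) (ζ ζ' : H) : ⟪ζ', mavg (cmu a) x ζ⟫_ℂ =
    ∑ i, ⟪star (a i) ζ', cex a x (star (a i) ζ)⟫_ℂ := by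
  rw [mavg_eq_th, th, sum_apply, inner_sum]
  refine Finset.sum_congr rfl fun i _ => ?_
  rw [BC.inner_star]
  rfl

/-- the diagonal part -/
theorem step_diag (ha : CF M a) (hW : Flat W) {d : G → ι → ℂ} (hd : Phase d) (x : H →L[ℂ] H)
    (ζ ζ' : H) :
    ∑ s, ‖∑ i, ⟪star (a i) ζ', star (bb a W (d s) i) (x (bb a W (d s) i (star (a i) ζ)))⟫_ℂ -
      ⟪ζ', mavg (cmu a) x ζ⟫_ℂ‖ ^ 2 ≤
      (Fintype.card G : ℝ) * ((Fintype.card ι : ℝ)⁻¹ * (‖x‖ ^ 2 * ‖ζ‖ ^ 2 * ‖ζ'‖ ^ 2)) := by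
  set r : G → ι → H := fun s i =>
    star (bb a W (d s) i) (x (bb a W (d s) i (star (a i) ζ))) - cex a x (star (a i) ζ) with hr
  have h1 : ∀ s ∈ (Finset.univ : Finset G),
      ‖∑ i, ⟪star (a i) ζ', star (bb a W (d s) i) (x (bb a W (d s) i (star (a i) ζ)))⟫_ℂ -
        ⟪ζ', mavg (cmu a) x ζ⟫_ℂ‖ ^ 2 ≤ ‖ζ'‖ ^ 2 * ∑ i, ‖r s i‖ ^ 2 := by
    intro s _
    rw [inner_mavg, ← Finset.sum_sub_distrib, ← cf_sum_sq ha ζ']
    refine le_trans ?_ (Finset.sum_mul_sq_le_sq_mul_sq _ _ _)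
    refine pow_le_pow_left₀ (norm_nonneg _) ((norm_sum_le _ _).trans ?_) 2
    refine Finset.sum_le_sum fun i _ => ?_
    rw [← inner_sub_right]
    exact norm_inner_le_norm _ _
  refine (Finset.sum_le_sum h1).trans ?_
  rw [← Finset.mul_sum, Finset.sum_comm]
  have h2 : ∑ i, ∑ s, ‖r s i‖ ^ 2 ≤ ∑ i, (Fintype.card G : ℝ) *
      ((Fintype.card ι : ℝ)⁻¹ * (‖x‖ ^ 2 * ‖star (a i) ζ‖ ^ 2)) :=
    Finset.sum_le_sum fun i _ => step_entry ha hW hd x _ i
  rw [← Finset.mul_sum, ← Finset.mul_sum, ← Finset.mul_sum, cf_sum_sq ha] at h2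
  refine (mul_le_mul_of_nonneg_left h2 (by positivity)).trans (le_of_eq ?_)
  ring

/-- **the second moment of the random unitary** -/
theorem moment_uu (ha : CF M a) (hW : Flat W) {e d : G → ι → ℂ} (he : Phase e) (hd : Phase d)
    (x : H →L[ℂ] H) (ζ ζ' : H) {m : ℝ} (hm : ∀ i, ‖star (a i) ζ'‖ ^ 2 ≤ m) :
    ∑ s, ∑ t, ‖⟪ζ', (uu a W (e t) (d s) * x * star (uu a W (e t) (d s))) ζ⟫_ℂ -
      ⟪ζ', mavg (cmu a) x ζ⟫_ℂ‖ ^ 2 ≤ (Fintype.card G : ℝ) ^ 2 *
      (2 * (m * (‖x‖ ^ 2 * ‖ζ‖ ^ 2)) +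
        2 * ((Fintype.card ι : ℝ)⁻¹ * (‖x‖ ^ 2 * ‖ζ‖ ^ 2 * ‖ζ'‖ ^ 2))) := by
  set D : G → ℂ := fun s =>
    ∑ i, ⟪star (a i) ζ', star (bb a W (d s) i) (x (bb a W (d s) i (star (a i) ζ)))⟫_ℂ with hD
  set c : ℂ := ⟪ζ', mavg (cmu a) x ζ⟫_ℂ with hc
  have h1 : ∀ s ∈ (Finset.univ : Finset G),
      ∑ t, ‖⟪ζ', (uu a W (e t) (d s) * x * star (uu a W (e t) (d s))) ζ⟫_ℂ - c‖ ^ 2 ≤
      2 * ((Fintype.card G : ℝ) * (m * (‖x‖ ^ 2 * ‖ζ‖ ^ 2))) +
        2 * ((Fintype.card G : ℝ) * ‖D s - c‖ ^ 2) := by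
    intro s _
    have h2 := step_off ha (bb_cf ha hW (hd.unit s)) he x ζ ζ' hm
    have h3 : ∀ t ∈ (Finset.univ : Finset G),
        ‖⟪ζ', (uu a W (e t) (d s) * x * star (uu a W (e t) (d s))) ζ⟫_ℂ - c‖ ^ 2 ≤
        2 * ‖⟪ζ', (vv a (bb a W (d s)) (e t) * x * star (vv a (bb a W (d s)) (e t))) ζ⟫_ℂ -
          D s‖ ^ 2 + 2 * ‖D s - c‖ ^ 2 := by
      intro t _
      rw [uu_eq]
      set A := ⟪ζ', (vv a (bb a W (d s)) (e t) * x * star (vv a (bb a W (d s)) (e t))) ζ⟫_ℂ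
      have h4 : ‖A - c‖ ≤ ‖A - D s‖ + ‖D s - c‖ := norm_sub_le_norm_sub_add_norm_sub _ _ _
      have h5 := pow_le_pow_left₀ (norm_nonneg _) h4 2
      nlinarith [sq_nonneg (‖A - D s‖ - ‖D s - c‖)]
    refine (Finset.sum_le_sum h3).trans ?_
    rw [Finset.sum_add_distrib, ← Finset.mul_sum, ← Finset.mul_sum, Finset.sum_const,
      Finset.card_univ, nsmul_eq_mul]
    linarith
  refine (Finset.sum_le_sum h1).trans ?_
  rw [Finset.sum_add_distrib, Finset.sum_const, Finset.card_univ, nsmul_eq_mul, ← Finset.mul_sum,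
    ← Finset.mul_sum]
  have h2 := mul_le_mul_of_nonneg_left (step_diag ha hW hd x ζ ζ')
    (Nat.cast_nonneg (α := ℝ) (Fintype.card G))
  nlinarith

end Vale.Agent.N132
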