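import Vale.Agent.N132.Seq
import Vale.Agent.P132N34.E

/-!
# P132: Connes' bicentralizer conjecture and weak mixing by one unitary

For every type III₁ factor `M` on a Hilbert space `H` and every faithful normal state `φ` of `M`:

1. `B(M, φ) = ℂ 1`;
2. for every faithful normal state `ψ` of `M`, every `δ > 0` and all finite sets `X ⊆ M`, `Z ⊆ H`
   there is one unitary `u ∈ M` with `‖u ψ - φ u‖ ≤ δ` such that `u x u*` is `δ`-close to `ψ(x) 1`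
   and `u* x u` is `δ`-close to `φ(x) 1`, weakly on `Z`, for all `x ∈ X`;
3. if `H` is separable, there is a sequence of unitaries `u_n ∈ M` with `‖u_n ψ - φ u_n‖ → 0`,
   `u_n x u_n* → ψ(x) 1` and `u_n* x u_n → φ(x) 1` weakly for every `x ∈ M`.
-/

namespace Vale.Agent.N132.OldMixing

open Filter Topology
open scoped InnerProductSpace
open Vale.Agent.P132 Vale.Agent.P132N34

universe u

/-- **Connes' bicentralizer conjecture**, and mixing by single unitaries which almost intertwine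
two faithful normal states. -/
theorem withdrawn :
    ∀ (H : Type u) [NormedAddCommGroup H] [InnerProductSpace ℂ H] [CompleteSpace H]
      (M : VonNeumannAlgebra H), IsTypeIIIOneFactor M →
      ∀ φ : (H →L[ℂ] H) → ℂ, IsState M φ → IsNormal M φ → IsFaithful M φ →
        bicentralizer M φ = {a | ∃ c : ℂ, a = c • 1} ∧
        ∀ ψ : (H →L[ℂ] H) → ℂ, IsState M ψ → IsNormal M ψ → IsFaithful M ψ →
          (∀ δ : ℝ, 0 < δ → ∀ X : Finset (H →L[ℂ] H), (∀ x ∈ X, x ∈ M) → ∀ Z : Finset H,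
            ∃ u ∈ M, u ∈ unitary (H →L[ℂ] H) ∧
              (∀ y ∈ M, ‖ψ (y * u) - φ (u * y)‖ ≤ δ * ‖y‖) ∧
              ∀ x ∈ X, ∀ ζ ∈ Z, ∀ ζ' ∈ Z,
                ‖⟪ζ', (u * x * star u) ζ⟫_ℂ - ψ x * ⟪ζ', ζ⟫_ℂ‖ ≤ δ ∧
                ‖⟪ζ', (star u * x * u) ζ⟫_ℂ - φ x * ⟪ζ', ζ⟫_ℂ‖ ≤ δ) ∧
          (TopologicalSpace.SeparableSpace H →
            ∃ u : ℕ → (H →L[ℂ] H), (∀ n, u n ∈ M ∧ u n ∈ unitary (H →L[ℂ] H)) ∧
              (∀ ε : ℝ, 0 < ε →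
                ∀ᶠ n in atTop, ∀ y ∈ M, ‖ψ (y * u n) - φ (u n * y)‖ ≤ ε * ‖y‖) ∧
              ∀ x ∈ M, ∀ ζ ζ' : H,
                Tendsto (fun n => ⟪ζ', (u n * x * star (u n)) ζ⟫_ℂ) atTop
                  (𝓝 (ψ x * ⟪ζ', ζ⟫_ℂ)) ∧
                Tendsto (fun n => ⟪ζ', (star (u n) * x * u n) ζ⟫_ℂ) atTop
                  (𝓝 (φ x * ⟪ζ', ζ⟫_ℂ))) := by
  intro H _ _ _ M hM φ h hn hf
  have hφ := h.series hn
  refine ⟨bicentralizer_eq_of_weights hM hφ hf, fun ψ h' hn' hf' => ⟨fun δ hδ X hX Z => ?_, ?_⟩⟩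
  · obtain ⟨u, h1, h2, h3, h4, h5⟩ := N132.mix_two hM hφ hf (h'.series hn') hf' X hX Z hδ
    exact ⟨u, h1, ⟨h2, h3⟩, h4, h5⟩
  · intro _
    obtain ⟨u, h1, h2, h3⟩ := N132.mix_seq hM hφ hf (h'.series hn') hf'
    exact ⟨u, fun n => ⟨(h1 n).1, (h1 n).2⟩, h2, h3⟩

end Vale.Agent.N132.OldMixing
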