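import Mathlib.Analysis.SpecialFunctions.Complex.CircleAddChar
import Mathlib.Analysis.InnerProductSpace.Basic

/-!
# P132: random phases and flat unitary matrices
-/

open scoped ComplexConjugate InnerProductSpace

namespace Vale.Agent.N132

variable {ι G : Type} [Fintype ι] [DecidableEq ι] [Fintype G]

/-- unimodular random variables `d i` on `G` such that the products `d i * conj (d k)`, `i ≠ k`,
are orthonormal -/
structure Phase (d : G → ι → ℂ) : Prop where
  unit : ∀ s i, d s i * conj (d s i) = 1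
  orth : ∀ i k j l, i ≠ k → j ≠ l →
    ∑ s, conj (d s i * conj (d s k)) * (d s j * conj (d s l)) =
      if i = j ∧ k = l then (Fintype.card G : ℂ) else 0

/-- unitary matrices all of whose entries have the same modulus -/
structure Flat (W : ι → ι → ℂ) : Prop where
  sq : ∀ i j, W i j * conj (W i j) = (Fintype.card ι : ℂ)⁻¹
  row : ∀ i k, ∑ j, W i j * conj (W k j) = if i = k then 1 else 0
  col : ∀ j l, ∑ i, conj (W i j) * W i l = if j = l then 1 else 0

omit [Fintype ι] in
theorem Phase.conj {d : G → ι → ℂ} (h : Phase d) : Phase fun s i => conj (d s i) where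
  unit := fun s i => by
    rw [Complex.conj_conj, mul_comm]
    exact h.unit s i
  orth := fun i k j l hik hjl => by
    have h1 := h.orth k i l j (Ne.symm hik) (Ne.symm hjl)
    have h2 : (if k = l ∧ i = j then (Fintype.card G : ℂ) else 0) =
        if i = j ∧ k = l then (Fintype.card G : ℂ) else 0 := by
      simp only [and_comm]
    rw [← h2, ← h1]
    refine Finset.sum_congr rfl fun s _ => ?_
    simp only [map_mul, Complex.conj_conj]
    ring

theorem Flat.adj {W : ι → ι → ℂ} (h : Flat W) : Flat fun j i => conj (W i j) where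
  sq := fun i j => by
    rw [Complex.conj_conj, mul_comm]
    exact h.sq j i
  row := fun i k => by
    simp only [Complex.conj_conj]
    exact h.col i k
  col := fun j l => by
    simp only [Complex.conj_conj]
    exact h.row j l

theorem exists_phase (ι : Type) [Fintype ι] [DecidableEq ι] :
    ∃ d : (ι → ZMod 3) → ι → ℂ, Phase d := by
  set ψ : AddChar (ZMod 3) ℂ := ZMod.stdAddChar with hψ
  have hinj : ∀ a : ZMod 3, ψ a = 1 → a = 0 := fun a ha =>
    ZMod.injective_stdAddChar (by rw [AddChar.map_zero_eq_one]; exact ha)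
  refine ⟨fun s i => ψ (s i), fun s i => ?_, fun i k j l hik hjl => ?_⟩
  · rw [← AddChar.map_neg_eq_conj, ← AddChar.map_add_eq_mul, add_neg_cancel,
      AddChar.map_zero_eq_one]
  · set L : (ι → ZMod 3) → ZMod 3 := fun s => s k - s i + (s j - s l) with hL
    have h1 : ∀ s : ι → ZMod 3,
        conj (ψ (s i) * conj (ψ (s k))) * (ψ (s j) * conj (ψ (s l))) = ψ (L s) := by
      intro s
      simp only [← AddChar.map_neg_eq_conj, ← AddChar.map_add_eq_mul]
      congr 1
      rw [hL]
      ring
    simp only [h1]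
    by_cases hc : i = j ∧ k = l
    · rw [if_pos hc]
      obtain ⟨rfl, rfl⟩ := hc
      have h2 : ∀ s : ι → ZMod 3, ψ (L s) = 1 := by
        intro s
        have : L s = 0 := by rw [hL]; ring
        rw [this, AddChar.map_zero_eq_one]
      simp only [h2]
      rw [Finset.sum_const, Finset.card_univ, nsmul_eq_mul, mul_one]
    · rw [if_neg hc]
      have h2 : ∃ s₀ : ι → ZMod 3, L s₀ ≠ 0 := by
        by_cases hij : i = j
        · have hkl : k ≠ l := fun h => hc ⟨hij, h⟩
          refine ⟨Pi.single k 1, ?_⟩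
          subst hij
          have e : L (Pi.single k 1) = 1 := by
            rw [hL]
            simp [Ne.symm hkl]
          rw [e]
          decide
        · refine ⟨Pi.single i 1, ?_⟩
          by_cases hil : l = i
          · subst hil
            have e : L (Pi.single l 1) = -2 := by
              rw [hL]
              simp [Ne.symm hik, Ne.symm hij]
              ring
            rw [e]
            decide
          · have e : L (Pi.single i 1) = -1 := by
              rw [hL]
              simp [Ne.symm hik, Ne.symm hij, hil]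
            rw [e]
            decide
      obtain ⟨s₀, hs₀⟩ := h2
      have h3 : ∑ s, ψ (L s) = ψ (L s₀) * ∑ s, ψ (L s) := by
        rw [Finset.mul_sum, ← Equiv.sum_comp (Equiv.addLeft s₀)]
        refine Finset.sum_congr rfl fun s _ => ?_
        rw [← AddChar.map_add_eq_mul]
        congr 1
        simp only [hL, Equiv.coe_addLeft, Pi.add_apply]
        ring
      have h4 : (1 - ψ (L s₀)) * ∑ s, ψ (L s) = 0 := by
        rw [sub_mul, one_mul, ← h3, sub_self]
      refine (mul_eq_zero.1 h4).resolve_left fun h5 => hs₀ (hinj _ ?_)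
      exact (sub_eq_zero.1 h5).symm

theorem exists_flat (ι : Type) [Fintype ι] [DecidableEq ι] [Nonempty ι] :
    ∃ W : ι → ι → ℂ, Flat W := by
  set n := Fintype.card ι with hn
  have hn0 : n ≠ 0 := Fintype.card_ne_zero
  have : NeZero n := ⟨hn0⟩
  let σ : ι ≃ ZMod n := Fintype.equivOfCardEq (by rw [ZMod.card])
  set ψ : AddChar (ZMod n) ℂ := ZMod.stdAddChar with hψ
  have hprim : ψ.IsPrimitive := ZMod.isPrimitive_stdAddChar n
  set c : ℂ := (((Real.sqrt n)⁻¹ : ℝ) : ℂ) with hc
  have hnC : (n : ℂ) ≠ 0 := by exact_mod_cast hn0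
  have hcc : c * c = (n : ℂ)⁻¹ := by
    rw [hc, ← Complex.ofReal_mul, ← mul_inv, Real.mul_self_sqrt (Nat.cast_nonneg n)]
    push_cast
    rfl
  have hcj : conj c = c := Complex.conj_ofReal _
  have key : ∀ i k : ι, ∑ j, c * ψ (σ j * σ i) * conj (c * ψ (σ j * σ k)) =
      if i = k then 1 else 0 := by
    intro i k
    have h1 : ∀ j : ι, c * ψ (σ j * σ i) * conj (c * ψ (σ j * σ k)) =
        (n : ℂ)⁻¹ * ψ (σ j * (σ i - σ k)) := by
      intro j
      rw [map_mul (starRingEnd ℂ), hcj, ← AddChar.map_neg_eq_conj, ← hcc, mul_sub, sub_eq_add_neg,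
        AddChar.map_add_eq_mul]
      ring
    simp only [h1]
    rw [← Finset.mul_sum, Equiv.sum_comp σ fun x => ψ (x * (σ i - σ k)),
      AddChar.sum_mulShift _ hprim, ZMod.card]
    by_cases hik : i = k
    · rw [if_pos hik, if_pos (by rw [hik, sub_self]), inv_mul_cancel₀ hnC]
    · rw [if_neg hik, if_neg fun h => hik (σ.injective (sub_eq_zero.1 h))]
      simp
  refine ⟨fun i j => c * ψ (σ j * σ i), fun i j => ?_, key, fun j l => ?_⟩
  · rw [map_mul (starRingEnd ℂ), hcj, ← AddChar.map_neg_eq_conj, ← hn, ← hcc]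
    have h1 : ψ (σ j * σ i) * ψ (-(σ j * σ i)) = 1 := by
      rw [← AddChar.map_add_eq_mul, add_neg_cancel, AddChar.map_zero_eq_one]
    calc c * ψ (σ j * σ i) * (c * ψ (-(σ j * σ i)))
        = c * c * (ψ (σ j * σ i) * ψ (-(σ j * σ i))) := by ring
      _ = c * c := by rw [h1, mul_one]
  · have h1 := key l j
    have h2 : (if l = j then (1 : ℂ) else 0) = if j = l then 1 else 0 := by
      simp only [eq_comm]
    rw [← h2, ← h1]
    refine Finset.sum_congr rfl fun i _ => ?_
    rw [mul_comm (σ j) (σ i), mul_comm (σ l) (σ i), mul_comm]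

/-- the second moment -/
theorem Phase.moment {E : Type*} [NormedAddCommGroup E] [InnerProductSpace ℂ E]
    {d : G → ι → ℂ} (h : Phase d) (c : ι → ι → E) :
    ∑ s, ‖∑ i, ∑ k, (d s i * conj (d s k)) • c i k - ∑ i, c i i‖ ^ 2 ≤
      (Fintype.card G : ℝ) * ∑ i, ∑ k, ‖c i k‖ ^ 2 := by
  set P : Finset (ι × ι) := Finset.univ.filter fun p => p.1 ≠ p.2 with hP
  have h1 : ∀ s, ∑ i, ∑ k, (d s i * conj (d s k)) • c i k - ∑ i, c i i =
      ∑ p ∈ P, (d s p.1 * conj (d s p.2)) • c p.1 p.2 := by
    intro s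
    rw [hP, Finset.sum_filter, Fintype.sum_prod_type, ← Finset.sum_sub_distrib]
    refine Finset.sum_congr rfl fun i _ => ?_
    have e1 : c i i = ∑ k, if i = k then (d s i * conj (d s k)) • c i k else 0 := by
      rw [Finset.sum_ite_eq, if_pos (Finset.mem_univ i), h.unit, one_smul]
    rw [e1, ← Finset.sum_sub_distrib]
    refine Finset.sum_congr rfl fun k _ => ?_
    by_cases hik : i = k
    · rw [if_pos hik, if_neg (not_not.2 hik), sub_self]
    · rw [if_neg hik, if_pos hik, sub_zero]
  simp only [h1]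
  have h2 : ((∑ s, ‖∑ p ∈ P, (d s p.1 * conj (d s p.2)) • c p.1 p.2‖ ^ 2 : ℝ) : ℂ) =
      (((Fintype.card G : ℝ) * ∑ p ∈ P, ‖c p.1 p.2‖ ^ 2 : ℝ) : ℂ) := by
    have h3 : ∀ v : E, ((‖v‖ : ℝ) : ℂ) ^ 2 = ⟪v, v⟫_ℂ := fun v => by
      rw [inner_self_eq_norm_sq_to_K]
      rfl
    push_cast
    simp only [h3]
    have h4 : ∀ s, ⟪∑ p ∈ P, (d s p.1 * conj (d s p.2)) • c p.1 p.2,
        ∑ p ∈ P, (d s p.1 * conj (d s p.2)) • c p.1 p.2⟫_ℂ =
        ∑ p ∈ P, ∑ q ∈ P, conj (d s p.1 * conj (d s p.2)) * (d s q.1 * conj (d s q.2)) *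
          ⟪c p.1 p.2, c q.1 q.2⟫_ℂ := by
      intro s
      rw [sum_inner]
      refine Finset.sum_congr rfl fun p _ => ?_
      rw [inner_sum]
      refine Finset.sum_congr rfl fun q _ => ?_
      rw [inner_smul_left, inner_smul_right]
      ring
    simp only [h4]
    rw [Finset.sum_comm, Finset.mul_sum]
    refine Finset.sum_congr rfl fun p hp => ?_
    rw [Finset.sum_comm, Finset.sum_eq_single p]
    · rw [← Finset.sum_mul, h.orth _ _ _ _ (Finset.mem_filter.1 hp).2 (Finset.mem_filter.1 hp).2,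
        if_pos ⟨rfl, rfl⟩]
    · intro q hq hne
      rw [← Finset.sum_mul, h.orth _ _ _ _ (Finset.mem_filter.1 hp).2 (Finset.mem_filter.1 hq).2,
        if_neg fun h' => hne (Prod.ext h'.1.symm h'.2.symm), zero_mul]
    · intro h'
      exact absurd hp h'
  have h5 : ∑ s, ‖∑ p ∈ P, (d s p.1 * conj (d s p.2)) • c p.1 p.2‖ ^ 2 =
      (Fintype.card G : ℝ) * ∑ p ∈ P, ‖c p.1 p.2‖ ^ 2 := by exact_mod_cast h2
  rw [h5, ← Fintype.sum_prod_type']
  refine mul_le_mul_of_nonneg_left ?_ (Nat.cast_nonneg _)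
  exact Finset.sum_le_sum_of_subset_of_nonneg (Finset.filter_subset _ _)
    fun _ _ _ => by positivity

end Vale.Agent.N132
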