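import Vale.Agent.N132.Main

/-!
# P132: mixing sequences of unitaries
-/

open Filter Topology
open scoped ComplexConjugate InnerProductSpace

namespace Vale.Agent.N132

open Vale.Agent.P132

universe u

variable {H : Type u} [NormedAddCommGroup H] [InnerProductSpace ℂ H] [CompleteSpace H]
variable {M : VonNeumannAlgebra H} {φ ψ : (H →L[ℂ] H) → ℂ}

omit [CompleteSpace H] in
theorem weak_of_dense {S : ℕ → (H →L[ℂ] H)} {K : ℝ} (hK : ∀ n, ‖S n‖ ≤ K) {ζ : ℕ → H}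
    (hζ : DenseRange ζ) (h : ∀ a b, Tendsto (fun n => ⟪ζ a, S n (ζ b)⟫_ℂ) atTop (𝓝 0))
    (η η' : H) : Tendsto (fun n => ⟪η', S n η⟫_ℂ) atTop (𝓝 0) := by
  have hK0 : 0 ≤ K := (norm_nonneg _).trans (hK 0)
  rw [NormedAddGroup.tendsto_nhds_zero]
  intro ε hε
  obtain ⟨r, hr0, hr1, hr2⟩ : ∃ r : ℝ, 0 < r ∧ r ≤ 1 ∧
      r * (4 * ((K + 1) * (‖η‖ + ‖η'‖ + 1))) ≤ ε :=
    ⟨min 1 (ε / (4 * ((K + 1) * (‖η‖ + ‖η'‖ + 1)))), lt_min one_pos (by positivity),
      min_le_left _ _, (le_div_iff₀ (by positivity)).1 (min_le_right _ _)⟩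
  obtain ⟨a, ha⟩ := hζ.exists_dist_lt η' hr0
  obtain ⟨b, hb⟩ := hζ.exists_dist_lt η hr0
  rw [dist_eq_norm] at ha hb
  have h1 := (NormedAddGroup.tendsto_nhds_zero.1 (h a b)) (ε / 2) (by positivity)
  filter_upwards [h1] with n hn
  have e : ⟪η', S n η⟫_ℂ = ⟪η' - ζ a, S n η⟫_ℂ + ⟪ζ a, S n (η - ζ b)⟫_ℂ + ⟪ζ a, S n (ζ b)⟫_ℂ := by
    rw [inner_sub_left, map_sub, inner_sub_right]
    ring
  have h2 : ‖⟪η' - ζ a, S n η⟫_ℂ‖ ≤ r * (K * ‖η‖) :=
    (norm_inner_le_norm _ _).trans (mul_le_mul ha.le (((S n).le_opNorm _).trans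
      (mul_le_mul_of_nonneg_right (hK n) (norm_nonneg _))) (norm_nonneg _) hr0.le)
  have h3 : ‖ζ a‖ ≤ ‖η'‖ + 1 := by
    have h4 := norm_sub_le η' (η' - ζ a)
    rw [sub_sub_cancel] at h4
    linarith
  have h4 : ‖⟪ζ a, S n (η - ζ b)⟫_ℂ‖ ≤ (‖η'‖ + 1) * (K * r) :=
    (norm_inner_le_norm _ _).trans (mul_le_mul h3 (((S n).le_opNorm _).trans
      (mul_le_mul (hK n) hb.le (norm_nonneg _) hK0)) (norm_nonneg _) (by positivity))
  have h5 : 0 ≤ r * (‖η‖ + ‖η'‖ + 1) := by positivity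
  rw [e]
  refine lt_of_le_of_lt (norm_add₃_le) ?_
  nlinarith

theorem mix_ext (hφ : IsNormalState M φ) (hf : IsFaithful M φ) (hψ : IsNormalState M ψ)
    {u : ℕ → (H →L[ℂ] H)} (huM : ∀ n, u n ∈ M) (hu1 : ∀ n, star (u n) * u n = 1)
    (hint : ∀ ε > 0, ∀ᶠ n in atTop, ∀ y ∈ M, ‖ψ (y * u n) - φ (u n * y)‖ ≤ ε * ‖y‖)
    {W : EllTwo H} (hW1 : ‖W‖ = 1) (hW : ∀ x ∈ M, ψ x = ⟪W, amp x W⟫_ℂ)
    {x : ℕ → (H →L[ℂ] H)} (hxM : ∀ j, x j ∈ M) (hx1 : ∀ j, ‖x j‖ ≤ 1)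
    (hxd : ∀ y ∈ M, ‖y‖ ≤ 1 → ∀ δ > 0, ∃ j, ‖amp (y - x j) W‖ ≤ δ)
    {ζ : ℕ → H} (hζ : DenseRange ζ)
    (h : ∀ j a b, Tendsto (fun n => ⟪ζ a, (u n * x j * star (u n)) (ζ b)⟫_ℂ) atTop
      (𝓝 (ψ (x j) * ⟪ζ a, ζ b⟫_ℂ)))
    {y : H →L[ℂ] H} (hy : y ∈ M) (η η' : H) :
    Tendsto (fun n => ⟪η', (u n * y * star (u n)) η⟫_ℂ) atTop (𝓝 (ψ y * ⟪η', η⟫_ℂ)) := by
  have hun : ∀ n, ‖u n‖ ≤ 1 := fun n => H8.isometry_norm_le (hu1 n)
  have hconj : ∀ n (z : H →L[ℂ] H), ‖u n * z * star (u n)‖ ≤ ‖z‖ := fun n z =>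
    N18.norm_conj_le (hun n) (by rw [norm_star]; exact hun n)
  have hsub : ∀ (T : H →L[ℂ] H) (c : ℂ) (v v' : H),
      ⟪v', (T - c • 1) v⟫_ℂ = ⟪v', T v⟫_ℂ - c * ⟪v', v⟫_ℂ := by
    intro T c v v'
    have h3 : (T - c • (1 : H →L[ℂ] H)) v = T v - c • v := rfl
    rw [h3, inner_sub_right, inner_smul_right]
  -- all vectors
  have h1 : ∀ j, Tendsto (fun n => ⟪η', (u n * x j * star (u n)) η⟫_ℂ - ψ (x j) * ⟪η', η⟫_ℂ)
      atTop (𝓝 0) := by
    intro j
    have h2 := weak_of_dense (S := fun n => u n * x j * star (u n) - ψ (x j) • 1)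
      (K := ‖x j‖ + ‖ψ (x j) • (1 : H →L[ℂ] H)‖)
      (fun n => (norm_sub_le _ _).trans (add_le_add (hconj n _) le_rfl)) hζ (fun a b => by
        simp only [hsub]
        exact tendsto_sub_nhds_zero_iff.2 (h j a b)) η η'
    simpa only [hsub] using h2
  -- the unit ball
  have h2 : ∀ y ∈ M, ‖y‖ ≤ 1 →
      Tendsto (fun n => ⟪η', (u n * y * star (u n)) η⟫_ℂ) atTop (𝓝 (ψ y * ⟪η', η⟫_ℂ)) := by
    intro y hy hy1
    rw [← tendsto_sub_nhds_zero_iff, NormedAddGroup.tendsto_nhds_zero]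
    intro ε hε
    obtain ⟨s, hs0, hs⟩ : ∃ s : ℝ, 0 < s ∧ s * (4 * ((‖η‖ + 1) * (‖η'‖ + 1))) ≤ ε :=
      ⟨ε / (4 * ((‖η‖ + 1) * (‖η'‖ + 1))), by positivity, le_of_eq (by field_simp)⟩
    obtain ⟨t, ht0, ht⟩ := strong_small hφ hf η 2 hs0
    obtain ⟨r, hr0, hr1, hr2, hr3⟩ : ∃ r : ℝ, 0 < r ∧ r ≤ 1 ∧ r ≤ s ∧ r ≤ t / 2 :=
      ⟨min 1 (min s (t / 2)), lt_min one_pos (lt_min hs0 (by positivity)), min_le_left _ _,
        (min_le_right _ _).trans (min_le_left _ _), (min_le_right _ _).trans (min_le_right _ _)⟩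
    obtain ⟨j, hj⟩ := hxd y hy hy1 r hr0
    have hz : y - x j ∈ M := sub_mem hy (hxM j)
    have hz2 : ‖y - x j‖ ≤ 2 := by
      have := norm_sub_le y (x j)
      have := hx1 j
      linarith
    have hw : star (y - x j) * (y - x j) ∈ M := mul_mem (star_mem hz) hz
    have hw4 : ‖star (y - x j) * (y - x j)‖ ≤ 4 := by
      rw [CStarRing.norm_star_mul_self]
      nlinarith [norm_nonneg (y - x j)]
    have hψw : ‖ψ (star (y - x j) * (y - x j))‖ ≤ t / 2 := by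
      rw [norm_state_sq hψ hz, vec_sq hW hz]
      nlinarith [norm_nonneg (amp (y - x j) W)]
    have hψz : ‖ψ (x j) - ψ y‖ ≤ s := by
      rw [norm_sub_rev, ← state_sub hψ hy (hxM j), hW _ hz]
      refine (norm_inner_le_norm _ _).trans ?_
      rw [hW1, one_mul]
      exact hj.trans hr2
    have h3 := (NormedAddGroup.tendsto_nhds_zero.1 (h1 j)) (ε / 2) (by positivity)
    filter_upwards [h3, hint (t / 8) (by positivity)] with n hn hn'
    have hzn : u n * (y - x j) * star (u n) ∈ M :=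
      mul_mem (mul_mem (huM n) hz) (star_mem (huM n))
    have h4 : ‖(u n * (y - x j) * star (u n)) η‖ ≤ s := by
      refine ht _ hzn ((hconj n _).trans hz2) ?_
      have e1 : star (u n * (y - x j) * star (u n)) * (u n * (y - x j) * star (u n)) =
          u n * (star (y - x j) * (y - x j) * star (u n)) := by
        rw [star_mul, star_mul, star_star]
        calc u n * (star (y - x j) * star (u n)) * (u n * (y - x j) * star (u n))
            = u n * (star (y - x j) * (star (u n) * u n) * (y - x j) * star (u n)) := by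
              simp only [mul_assoc]
          _ = _ := by rw [hu1, mul_one]
      have h5 := hn' _ (mul_mem hw (star_mem (huM n)))
      rw [mul_assoc _ (star (u n)), hu1, mul_one] at h5
      have h6 : ‖star (y - x j) * (y - x j) * star (u n)‖ ≤ 4 := by
        refine (norm_mul_le _ _).trans ((mul_le_of_le_one_right (norm_nonneg _) ?_).trans hw4)
        rw [norm_star]
        exact hun n
      have h7 := mul_le_mul_of_nonneg_left h6 (show 0 ≤ t / 8 by positivity)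
      have h8 := norm_sub_le (ψ (star (y - x j) * (y - x j))) (ψ (star (y - x j) * (y - x j)) -
        φ (u n * (star (y - x j) * (y - x j) * star (u n))))
      rw [sub_sub_cancel] at h8
      rw [e1]
      linarith
    have e : ⟪η', (u n * y * star (u n)) η⟫_ℂ - ψ y * ⟪η', η⟫_ℂ =
        ⟪η', (u n * (y - x j) * star (u n)) η⟫_ℂ + (ψ (x j) - ψ y) * ⟪η', η⟫_ℂ +
          (⟪η', (u n * x j * star (u n)) η⟫_ℂ - ψ (x j) * ⟪η', η⟫_ℂ) := by
      rw [mul_sub (u n), sub_mul (u n * y)]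
      have h5 : (u n * y * star (u n) - u n * x j * star (u n)) η =
          (u n * y * star (u n)) η - (u n * x j * star (u n)) η := rfl
      rw [h5, inner_sub_right]
      ring
    have h5 : ‖⟪η', (u n * (y - x j) * star (u n)) η⟫_ℂ‖ ≤ ‖η'‖ * s :=
      (norm_inner_le_norm _ _).trans (mul_le_mul_of_nonneg_left h4 (norm_nonneg _))
    have h6 : ‖(ψ (x j) - ψ y) * ⟪η', η⟫_ℂ‖ ≤ s * (‖η'‖ * ‖η‖) := by
      rw [norm_mul]
      exact mul_le_mul hψz (norm_inner_le_norm _ _) (norm_nonneg _) hs0.le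
    have h7 : 0 ≤ s * ‖η‖ := by positivity
    have h8 : 0 ≤ s * ‖η'‖ := by positivity
    have h9 : 0 ≤ s * (‖η'‖ * ‖η‖) := by positivity
    rw [e]
    refine lt_of_le_of_lt (norm_add₃_le) ?_
    nlinarith
  -- scaling
  have hc0 : (0 : ℝ) < ‖y‖ + 1 := by positivity
  have hcC : (((‖y‖ + 1 : ℝ)) : ℂ) ≠ 0 := by exact_mod_cast hc0.ne'
  have hy' : ((((‖y‖ + 1 : ℝ)) : ℂ)⁻¹) • y ∈ M := M.toStarSubalgebra.smul_mem hy _
  have h3 := (h2 _ hy' (by
    rw [norm_smul, norm_inv, Complex.norm_real, Real.norm_of_nonneg hc0.le,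
      inv_mul_le_iff₀ hc0]
    linarith)).const_mul (((‖y‖ + 1 : ℝ)) : ℂ)
  rw [state_smul hψ _ hy, ← mul_assoc, ← mul_assoc, mul_inv_cancel₀ hcC, one_mul] at h3
  refine h3.congr fun n => ?_
  rw [mul_smul_comm, smul_mul_assoc, smul_apply, inner_smul_right, ← mul_assoc,
    mul_inv_cancel₀ hcC, one_mul]

/-- **mixing sequences** -/
theorem mix_seq [TopologicalSpace.SeparableSpace H] (hM : IsTypeIIIOneFactor M)
    (hφ : IsNormalState M φ) (hφf : IsFaithful M φ) (hψ : IsNormalState M ψ)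
    (hψf : IsFaithful M ψ) :
    ∃ u : ℕ → (H →L[ℂ] H), (∀ n, u n ∈ M ∧ star (u n) * u n = 1 ∧ u n * star (u n) = 1) ∧
      (∀ ε > 0, ∀ᶠ n in atTop, ∀ y ∈ M, ‖ψ (y * u n) - φ (u n * y)‖ ≤ ε * ‖y‖) ∧
      ∀ x ∈ M, ∀ ζ ζ' : H,
        Tendsto (fun n => ⟪ζ', (u n * x * star (u n)) ζ⟫_ℂ) atTop (𝓝 (ψ x * ⟪ζ', ζ⟫_ℂ)) ∧
        Tendsto (fun n => ⟪ζ', (star (u n) * x * u n) ζ⟫_ℂ) atTop (𝓝 (φ x * ⟪ζ', ζ⟫_ℂ)) := by
  classical
  obtain ⟨V, hV1, hV⟩ := PD.exists_vec hφ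
  obtain ⟨W, hW1, hW⟩ := PD.exists_vec hψ
  obtain ⟨x, hxM, hx1, hxd⟩ := exists_dense_ball M W
  obtain ⟨x', hxM', hx1', hxd'⟩ := exists_dense_ball M V
  have : Nonempty H := ⟨0⟩
  obtain ⟨ζ, hζ⟩ := TopologicalSpace.exists_dense_seq H
  choose u huM hu1 hu2 hu3 hu4 using fun n : ℕ => mix_two hM hφ hφf hψ hψf
    ((Finset.range n).image x ∪ (Finset.range n).image x') (by
      intro z hz
      rcases Finset.mem_union.1 hz with h | h
      · obtain ⟨j, -, rfl⟩ := Finset.mem_image.1 h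
        exact hxM j
      · obtain ⟨j, -, rfl⟩ := Finset.mem_image.1 h
        exact hxM' j) ((Finset.range n).image ζ) (δ := 1 / ((n : ℝ) + 1)) (by positivity)
  have hlim : Tendsto (fun n : ℕ => 1 / ((n : ℝ) + 1)) atTop (𝓝 0) :=
    tendsto_one_div_add_atTop_nhds_zero_nat
  have hint : ∀ ε > 0, ∀ᶠ n in atTop, ∀ y ∈ M, ‖ψ (y * u n) - φ (u n * y)‖ ≤ ε * ‖y‖ := by
    intro ε hε
    filter_upwards [hlim.eventually (Iic_mem_nhds hε)] with n hn y hy
    exact (hu3 n y hy).trans (mul_le_mul_of_nonneg_right hn (norm_nonneg _))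
  have hint' : ∀ ε > 0, ∀ᶠ n in atTop, ∀ y ∈ M,
      ‖φ (y * star (u n)) - ψ (star (u n) * y)‖ ≤ ε * ‖y‖ := by
    intro ε hε
    filter_upwards [hint ε hε] with n hn y hy
    have hs := star_mem (huM n)
    have hs1 : ‖star (u n)‖ ≤ 1 := by
      rw [norm_star]
      exact H8.isometry_norm_le (hu1 n)
    have h1 := hn _ (mul_mem (mul_mem hs hy) hs)
    rw [mul_assoc _ (star (u n)) (u n), hu1, mul_one, ← mul_assoc, ← mul_assoc, hu2, one_mul,
      norm_sub_rev] at h1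
    exact h1.trans (mul_le_mul_of_nonneg_left (N18.norm_conj_le hs1 hs1) hε.le)
  have hmem : ∀ (f : ℕ → H) (a n : ℕ), a < n → f a ∈ (Finset.range n).image f :=
    fun f a n h => Finset.mem_image_of_mem f (Finset.mem_range.2 h)
  refine ⟨u, fun n => ⟨huM n, hu1 n, hu2 n⟩, hint, fun y hy η η' => ⟨?_, ?_⟩⟩
  · refine mix_ext hφ hφf hψ huM hu1 hint hW1 hW hxM hx1 hxd hζ (fun j a b => ?_) hy η η'
    rw [tendsto_iff_norm_sub_tendsto_zero]
    refine squeeze_zero' (Eventually.of_forall fun n => norm_nonneg _) ?_ hlim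
    filter_upwards [eventually_gt_atTop j, eventually_gt_atTop a, eventually_gt_atTop b]
      with n hj ha hb
    exact (hu4 n _ (Finset.mem_union_left _
      (Finset.mem_image_of_mem x (Finset.mem_range.2 hj))) _ (hmem ζ b n hb) _ (hmem ζ a n ha)).1
  · have h1 := mix_ext (u := fun n => star (u n)) hψ hψf hφ (fun n => star_mem (huM n))
      (fun n => by rw [star_star, hu2]) hint' hV1 hV hxM' hx1' hxd' hζ (fun j a b => by
        simp only [star_star]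
        rw [tendsto_iff_norm_sub_tendsto_zero]
        refine squeeze_zero' (Eventually.of_forall fun n => norm_nonneg _) ?_ hlim
        filter_upwards [eventually_gt_atTop j, eventually_gt_atTop a, eventually_gt_atTop b]
          with n hj ha hb
        exact (hu4 n _ (Finset.mem_union_right _
          (Finset.mem_image_of_mem x' (Finset.mem_range.2 hj))) _ (hmem ζ b n hb) _
          (hmem ζ a n ha)).2) hy η η'
    simpa only [star_star] using h1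

end Vale.Agent.N132
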